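import Vale.Agent.P151.R3.H822.VSpec

/-!
P151, route R3, block V, part 1: separation, the greedy walk, fibre counts.
-/

universe u w

open Filter Topology

namespace Vale.Agent.P151.R3.V

variable {G : Type u} [Group G] {L : NLen G} {V : Filter ℕ} {ρ : ℕ → G → ℝ} {W : Type w}
  [NormedAddCommGroup W] [InnerProductSpace ℝ W] {π : L.Bdd →* (W ≃ₗᵢ[ℝ] W)} {c : L.Bdd → W}
  {C : ℝ}

theorem Data.C_one (h : Data L V ρ W π c C) : 1 ≤ C := by
  have h1 := h.pack 0 {1} (by simp [L.one]) (by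
    intro x hx y hy hxy
    rw [Finset.mem_singleton] at hx hy
    exact absurd (hx.trans hy.symm) hxy)
  simpa using h1

theorem Data.c_one (h : Data L V ρ W π c C) : c 1 = 0 := by
  have h1 := h.c_mul 1 1
  rw [mul_one, map_one] at h1
  have h2 : (1 : W ≃ₗᵢ[ℝ] W) (c 1) = c 1 := rfl
  rw [h2] at h1
  simpa using h1

theorem Data.c_inv (h : Data L V ρ W π c C) (g : L.Bdd) : c g⁻¹ = - π g⁻¹ (c g) := by
  have h1 := h.c_mul g⁻¹ g
  rw [inv_mul_cancel, h.c_one] at h1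
  exact eq_neg_of_add_eq_zero_left h1.symm

theorem Data.c_inv_mul (h : Data L V ρ W π c C) (g k : L.Bdd) : ‖c (g⁻¹ * k)‖ = ‖c k - c g‖ := by
  have h3 : c (g⁻¹ * k) = π g⁻¹ (c k - c g) := by
    rw [h.c_mul, map_sub, h.c_inv]
    abel
  rw [h3, LinearIsometryEquiv.norm_map]

theorem Data.sep (h : Data L V ρ W π c C) {g k : L.Bdd} (hs : 5 * C < ‖c k - c g‖) :
    ∀ᶠ A in V, 4 < L.ℓ ((g.1 A)⁻¹ * k.1 A) := by
  have h1 := h.c_lim (g⁻¹ * k)
  rw [h.c_inv_mul] at h1
  filter_upwards [h1.eventually (lt_mem_nhds hs)] with A hA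
  by_contra hcon
  push Not at hcon
  have h2 := h.ρ_le A ((g⁻¹ * k).1 A)
  have h3 : (L.ℓ ((g⁻¹ * k).1 A) : ℝ) ≤ 4 := by exact_mod_cast hcon
  have hC := h.C_one
  nlinarith

theorem Data.norm_le [NeBot V] (h : Data L V ρ W π c C) {g : L.Bdd} {B : ℕ}
    (hB : ∀ A, L.ℓ (g.1 A) ≤ B) : ‖c g‖ ≤ C * (1 + B) := by
  refine le_of_tendsto (h.c_lim g) (Eventually.of_forall fun A => ?_)
  refine (h.ρ_le A _).trans ?_
  have h1 : (L.ℓ (g.1 A) : ℝ) ≤ B := by exact_mod_cast hB A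
  nlinarith [h.C_one]

/-- counting a family of bounded sequences -/
theorem fam [NeBot V] {ι : Type*} [Fintype ι] (g : ι → L.Bdd) (S : Set G) (B : ℕ) (bd : ℝ)
    (hcnt : ∀ F : Finset G, (∀ x ∈ F, x ∈ S ∧ L.ℓ x ≤ B) → L.Sep F → (F.card : ℝ) ≤ bd)
    (hS : ∀ i A, (g i).1 A ∈ S) (hB : ∀ i A, L.ℓ ((g i).1 A) ≤ B)
    (hsep : ∀ i j, i ≠ j → ∀ᶠ A in V, 4 < L.ℓ (((g i).1 A)⁻¹ * (g j).1 A)) :
    (Fintype.card ι : ℝ) ≤ bd := by
  classical
  have h1 : ∀ᶠ A in V, ∀ i j, i ≠ j → 4 < L.ℓ (((g i).1 A)⁻¹ * (g j).1 A) := by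
    rw [eventually_all]
    intro i
    rw [eventually_all]
    intro j
    by_cases hij : i = j
    · exact Eventually.of_forall fun A hne => absurd hij hne
    · exact (hsep i j hij).mono fun A hA _ => hA
  obtain ⟨A, hA⟩ := h1.exists
  have hinj : Function.Injective fun i => (g i).1 A := by
    intro i j hij
    by_contra hne
    have h2 := hA i j hne
    have h3 : (g i).1 A = (g j).1 A := hij
    rw [h3, inv_mul_cancel, L.one] at h2
    omega
  have h2 := hcnt (Finset.univ.image fun i => (g i).1 A) (by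
    intro x hx
    rw [Finset.mem_image] at hx
    obtain ⟨i, -, rfl⟩ := hx
    exact ⟨hS i A, hB i A⟩) (by
    intro x hx y hy hxy
    rw [Finset.mem_image] at hx hy
    obtain ⟨i, -, rfl⟩ := hx
    obtain ⟨j, -, rfl⟩ := hy
    exact hA i j fun hij => hxy (by rw [hij]))
  rwa [Finset.card_image_of_injective _ hinj, Finset.card_univ] at h2

/-- the greedy walk -/
theorem Data.fill [NeBot V] (h : Data L V ρ W π c C) : ∃ (J : ℕ) (e M : ℝ), 0 < e ∧ 0 < M ∧
    ∀ (n : ℕ) (y : W), ‖y‖ ≤ M + n * e → ∃ g : L.Bdd, (∀ A, L.ℓ (g.1 A) ≤ J * n) ∧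
      ‖c g - y‖ ≤ M := by
  obtain ⟨J, e, he, hvis⟩ := h.vis
  have hC := h.C_one
  obtain ⟨B, hB⟩ : ∃ B : ℝ, B = C * (1 + J) := ⟨_, rfl⟩
  have hB0 : 0 < B := by
    rw [hB]
    positivity
  obtain ⟨M, hM⟩ : ∃ M : ℝ, M = B ^ 2 / e + e := ⟨_, rfl⟩
  have hM0 : 0 < M := by
    rw [hM]
    positivity
  refine ⟨J, e / 2, M, by positivity, hM0, fun n => ?_⟩
  induction n with
  | zero =>
    intro y hy
    refine ⟨1, fun A => ?_, ?_⟩
    · rw [mul_zero]
      show L.ℓ 1 ≤ 0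
      rw [L.one]
    · rw [h.c_one, zero_sub, norm_neg]
      simpa using hy
  | succ n ih =>
    intro y hy
    by_cases hyM : ‖y‖ ≤ M
    · refine ⟨1, fun A => ?_, ?_⟩
      · show L.ℓ 1 ≤ _
        rw [L.one]
        exact Nat.zero_le _
      · rw [h.c_one, zero_sub, norm_neg]
        exact hyM
    · push Not at hyM
      have hd : 0 < ‖y‖ := hM0.trans hyM
      obtain ⟨g, hgJ, hg⟩ := hvis ((‖y‖⁻¹ : ℝ) • y) (by
        rw [norm_smul, norm_inv, norm_norm, inv_mul_cancel₀ hd.ne'])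
      have hgB : ‖c g‖ ≤ B := by
        rw [hB]
        exact h.norm_le hgJ
      have h1 : e * ‖y‖ ≤ inner ℝ (c g) y := by
        rw [real_inner_smul_right, inv_mul_eq_div, le_div_iff₀ hd] at hg
        exact hg
      have h2 : ‖y - c g‖ ≤ ‖y‖ - e / 2 := by
        have h3 : ‖y - c g‖ ^ 2 = ‖y‖ ^ 2 - 2 * inner ℝ (c g) y + ‖c g‖ ^ 2 := by
          rw [norm_sub_sq_real, real_inner_comm]
        have h4 : B ^ 2 ≤ e * ‖y‖ := by
          have h5 : B ^ 2 / e ≤ ‖y‖ := by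
            rw [hM] at hyM
            linarith
          rw [div_le_iff₀ he] at h5
          linarith
        have h6 : e ≤ ‖y‖ := by
          have h7 : 0 ≤ B ^ 2 / e := by positivity
          rw [hM] at hyM
          linarith
        have h8 : ‖c g‖ ^ 2 ≤ B ^ 2 := pow_le_pow_left₀ (norm_nonneg _) hgB 2
        have h9 : ‖y - c g‖ ^ 2 ≤ (‖y‖ - e / 2) ^ 2 := by
          rw [h3]
          nlinarith
        exact le_of_sq_le_sq h9 (by linarith)
      obtain ⟨g', hg'J, hg'⟩ := ih (π g⁻¹ (y - c g)) (by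
        rw [LinearIsometryEquiv.norm_map]
        push_cast at hy
        linarith)
      refine ⟨g * g', fun A => ?_, ?_⟩
      · have h3 := L.mul (g.1 A) (g'.1 A)
        have h4 := hgJ A
        have h5 := hg'J A
        show L.ℓ (g.1 A * g'.1 A) ≤ _
        rw [Nat.mul_succ]
        omega
      · have h3 : c (g * g') - y = π g (c g' - π g⁻¹ (y - c g)) := by
          rw [h.c_mul, map_sub]
          have h4 : π g (π g⁻¹ (y - c g)) = y - c g := by
            show (π g * π g⁻¹) (y - c g) = _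
            rw [← map_mul, mul_inv_cancel, map_one]
            rfl
          rw [h4]
          abel
        rw [h3, LinearIsometryEquiv.norm_map]
        exact hg'

end Vale.Agent.P151.R3.V
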