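import Vale.Agent.P151.R3.H822.VBase

/-!
P151, route R3, block V, part 2: volume filling and fibre counts.
-/

universe u w

open Filter Topology

namespace Vale.Agent.P151.R3.V

variable {G : Type u} [Group G] {L : NLen G} {V : Filter ℕ} {ρ : ℕ → G → ℝ} {W : Type w}
  [NormedAddCommGroup W] [InnerProductSpace ℝ W] {π : L.Bdd →* (W ≃ₗᵢ[ℝ] W)} {c : L.Bdd → W}
  {C : ℝ}

theorem Data.fill' [NeBot V] (h : Data L V ρ W π c C) : ∃ D : ℕ, 0 < D ∧
    ∀ (n : ℕ) (y : W), ‖y‖ ≤ n → ∃ g : L.Bdd, (∀ A, L.ℓ (g.1 A) ≤ D * n) ∧ ‖c g - y‖ ≤ D := by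
  obtain ⟨J, e, M, he, hM, hf⟩ := h.fill
  obtain ⟨q, hq⟩ : ∃ q : ℕ, q = ⌈e⁻¹⌉₊ := ⟨_, rfl⟩
  have hq1 : 1 ≤ q * e := by
    have h1 : e⁻¹ ≤ q := by
      rw [hq]
      exact Nat.le_ceil _
    have h2 := mul_le_mul_of_nonneg_right h1 he.le
    rwa [inv_mul_cancel₀ he.ne'] at h2
  refine ⟨J * q + ⌈M⌉₊ + 1, Nat.succ_pos _, fun n y hy => ?_⟩
  obtain ⟨g, hg1, hg2⟩ := hf (q * n) y (by
    push_cast
    have h3 : (0 : ℝ) ≤ n := Nat.cast_nonneg n
    nlinarith)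
  refine ⟨g, fun A => (hg1 A).trans ?_, hg2.trans ?_⟩
  · rw [← mul_assoc]
    exact Nat.mul_le_mul_right _ (by omega)
  · have h4 := Nat.le_ceil M
    push_cast
    have h5 : (0 : ℝ) ≤ (J : ℝ) * q := by positivity
    linarith

/-- A separated family of polynomial size in directions of an orthonormal family. -/
theorem Data.family [NeBot V] (h : Data L V ρ W π c C) {m : ℕ} (u : Fin m → W)
    (hu : Orthonormal ℝ u) : ∃ D : ℕ, ∀ R : ℕ, ∃ g : (Fin m → Fin R) → L.Bdd,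
      (∀ a A, L.ℓ ((g a).1 A) ≤ D * R) ∧ ∀ a b, a ≠ b → 5 * C < ‖c (g b) - c (g a)‖ := by
  obtain ⟨D, hD0, hD⟩ := h.fill'
  obtain ⟨s, hs⟩ : ∃ s : ℕ, s = ⌈5 * C⌉₊ + 2 * D + 1 := ⟨_, rfl⟩
  have hsC : 5 * C + 2 * D < s := by
    have h1 := Nat.le_ceil (5 * C)
    rw [hs]
    push_cast
    linarith
  refine ⟨D * (m * s), fun R => ?_⟩
  let y : (Fin m → Fin R) → W := fun a => ∑ i, ((s * (a i : ℕ) : ℕ) : ℝ) • u i
  have hy : ∀ a, ‖y a‖ ≤ ((m * s * R : ℕ) : ℝ) := by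
    intro a
    refine (norm_sum_le _ _).trans ?_
    have h1 : ∀ i ∈ (Finset.univ : Finset (Fin m)), ‖((s * (a i : ℕ) : ℕ) : ℝ) • u i‖ ≤
        ((s * R : ℕ) : ℝ) := by
      intro i _
      rw [norm_smul, hu.1 i, mul_one, Real.norm_natCast]
      exact_mod_cast Nat.mul_le_mul_left s (a i).2.le
    refine (Finset.sum_le_card_nsmul _ _ _ h1).trans (le_of_eq ?_)
    rw [Finset.card_univ, Fintype.card_fin, nsmul_eq_mul]
    push_cast
    ring
  choose g hg1 hg2 using fun a => hD (m * s * R) (y a) (hy a)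
  refine ⟨g, fun a A => (hg1 a A).trans (le_of_eq (by ring)), fun a b hab => ?_⟩
  -- the distance of the targets
  have h1 : (s : ℝ) ≤ ‖y b - y a‖ := by
    obtain ⟨i, hi⟩ := Function.ne_iff.1 hab
    have h2 : inner ℝ (u i) (y b - y a) = (s : ℝ) * ((b i : ℕ) - (a i : ℕ) : ℝ) := by
      have h3 : ∀ a : Fin m → Fin R, inner ℝ (u i) (y a) = ((s * (a i : ℕ) : ℕ) : ℝ) := by
        intro a
        exact hu.inner_right_fintype (fun i => ((s * (a i : ℕ) : ℕ) : ℝ)) i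
      rw [inner_sub_right, h3, h3]
      push_cast
      ring
    have h3 : |inner ℝ (u i) (y b - y a)| ≤ ‖y b - y a‖ := by
      have := abs_real_inner_le_norm (u i) (y b - y a)
      rwa [hu.1 i, one_mul] at this
    refine le_trans ?_ h3
    rw [h2, abs_mul, Nat.abs_cast]
    have h4 : (1 : ℝ) ≤ |((b i : ℕ) : ℝ) - ((a i : ℕ) : ℝ)| := by
      have h5 : ((b i : ℕ) : ℤ) - ((a i : ℕ) : ℤ) ≠ 0 := by
        intro h6
        apply hi
        apply Fin.ext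
        omega
      have h7 := Int.one_le_abs h5
      have h8 : ((1 : ℤ) : ℝ) ≤ ((|((b i : ℕ) : ℤ) - ((a i : ℕ) : ℤ)| : ℤ) : ℝ) := by
        exact_mod_cast h7
      push_cast at h8
      exact h8
    nlinarith [Nat.cast_nonneg (α := ℝ) s]
  have h2 : ‖y b - y a‖ ≤ ‖c (g b) - c (g a)‖ + (D + D) := by
    have h3 : y b - y a = (c (g b) - c (g a)) - ((c (g b) - y b) - (c (g a) - y a)) := by abel
    rw [h3]
    refine (norm_sub_le _ _).trans (add_le_add le_rfl ?_)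
    exact (norm_sub_le _ _).trans (add_le_add (hg2 b) (hg2 a))
  linarith

/-- The elements of `G` which act trivially on `W`. -/
def Data.K (h : Data L V ρ W π c C) : Subgroup G where
  carrier := {s | c (L.cst s) = 0 ∧ π (L.cst s) = 1}
  one_mem' := by
    refine ⟨?_, ?_⟩
    · rw [map_one, h.c_one]
    · rw [map_one, map_one]
  mul_mem' := by
    rintro a b ⟨ha, ha'⟩ ⟨hb, hb'⟩
    refine ⟨?_, ?_⟩
    · rw [map_mul, h.c_mul, ha, hb, map_zero, add_zero]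
    · rw [map_mul, map_mul, ha', hb', mul_one]
  inv_mem' := by
    rintro a ⟨ha, ha'⟩
    refine ⟨?_, ?_⟩
    · rw [map_inv, h.c_inv, ha, map_zero, neg_zero]
    · rw [map_inv, map_inv, ha', inv_one]

theorem Data.mem_K (h : Data L V ρ W π c C) {s : G} :
    s ∈ h.K ↔ c (L.cst s) = 0 ∧ π (L.cst s) = 1 := Iff.rfl

theorem Data.K_normal (h : Data L V ρ W π c C) {s : G} (hs : s ∈ h.K) (g : G) :
    g * s * g⁻¹ ∈ h.K := by
  obtain ⟨h1, h2⟩ := hs
  refine ⟨?_, ?_⟩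
  · rw [map_mul, map_mul, h.c_mul, h.c_mul, h1, map_zero, add_zero, map_mul, h2, mul_one,
      map_inv, h.c_inv, map_neg]
    have h4 : π (L.cst g) (π (L.cst g)⁻¹ (c (L.cst g))) = c (L.cst g) := by
      show (π (L.cst g) * π (L.cst g)⁻¹) (c (L.cst g)) = _
      rw [← map_mul, mul_inv_cancel, map_one]
      rfl
    rw [h4, add_neg_cancel]
  · rw [map_mul, map_mul, map_mul, map_mul, h2, mul_one, map_inv, map_inv, mul_inv_cancel]

/-- Multiplying by an element acting trivially does not change the cocycle. -/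
theorem Data.c_mul_K (h : Data L V ρ W π c C) {s : G} (hs : s ∈ h.K) (g : L.Bdd) :
    c (g * L.cst s) = c g := by
  rw [h.c_mul, hs.1, map_zero, add_zero]

/-- **Fibre counts.** -/
theorem Data.count [NeBot V] (h : Data L V ρ W π c C) {m : ℕ} (u : Fin m → W)
    (hu : Orthonormal ℝ u) : ∃ D : ℝ, 0 ≤ D ∧ ∀ (A : ℕ) (F : Finset G),
      (∀ x ∈ F, x ∈ h.K ∧ L.ℓ x ≤ A) → L.Sep F →
      (F.card : ℝ) * (A + 1) ^ m ≤ D * (A + 1) ^ 2 := by
  classical
  obtain ⟨D, hD⟩ := h.family u hu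
  have hC := h.C_one
  refine ⟨C * (D + 1) ^ 2, by positivity, fun A F hF hsep => ?_⟩
  obtain ⟨g, hg1, hg2⟩ := hD (A + 1)
  have h1 := fam (V := V) (L := L) (ι := (Fin m → Fin (A + 1)) × F)
    (fun p => g p.1 * L.cst (p.2 : G)) Set.univ (D * (A + 1) + A) (C * ((D * (A + 1) + A : ℕ) + 1) ^ 2)
    (fun F' hF' hs' => h.pack _ F' (fun x hx => (hF' x hx).2) hs')
    (fun _ _ => Set.mem_univ _)
    (fun p B => (L.mul _ _).trans (add_le_add (hg1 p.1 B) (hF _ p.2.2).2))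
    (fun p q hpq => ?_)
  · rw [Fintype.card_prod, Fintype.card_fun, Fintype.card_fin, Fintype.card_fin,
      Fintype.card_coe] at h1
    push_cast at h1
    have h2 : (0 : ℝ) ≤ A := Nat.cast_nonneg A
    have h3 : (0 : ℝ) ≤ D := Nat.cast_nonneg D
    calc (F.card : ℝ) * (A + 1) ^ m = (A + 1) ^ m * F.card := by ring
      _ ≤ C * ((D * (A + 1) + A : ℝ) + 1) ^ 2 := h1
      _ = C * (D + 1) ^ 2 * (A + 1) ^ 2 := by ring
  · by_cases h1 : p.1 = q.1
    · refine Eventually.of_forall fun B => ?_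
      have h2 : p.2 ≠ q.2 := fun h3 => hpq (Prod.ext h1 h3)
      have h3 := hsep _ p.2.2 _ q.2.2 (fun h4 => h2 (Subtype.ext h4))
      have h4 : ((g p.1 * L.cst (p.2 : G)).1 B)⁻¹ * (g q.1 * L.cst (q.2 : G)).1 B =
          (p.2 : G)⁻¹ * (q.2 : G) := by
        show ((g p.1).1 B * (p.2 : G))⁻¹ * ((g q.1).1 B * (q.2 : G)) = _
        rw [h1]
        group
      rw [h4]
      exact h3
    · refine h.sep ?_
      rw [h.c_mul_K (hF _ q.2.2).1, h.c_mul_K (hF _ p.2.2).1]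
      exact hg2 _ _ h1

end Vale.Agent.P151.R3.V
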