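import Vale.Agent.P151.R3.H822.VPath

/-!
P151, route R3, block V, part 4: the gap lemma (for every polynomial packing bound).
-/

universe u w

open Filter Topology

namespace Vale.Agent.P151.R3.V

variable {G : Type u} [Group G] {L : NLen G}

theorem NLen.short_mono {K : Subgroup G} {r s : ℕ} (h : r ≤ s) : L.short K r ⊆ L.short K s :=
  fun _ hx => ⟨hx.1, hx.2.trans h⟩

/-- **Gap lemma.**  Every strict step `⟨K ∩ {ℓ ≤ r}⟩ < ⟨K ∩ {ℓ ≤ r + 2}⟩` doubles the number of
separated elements, while the lengths only grow quadratically in the number of steps. -/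
theorem gap (L : NLen G) (K : Subgroup G) (C : ℝ)
    (hp : ∀ (A : ℕ) (F : Finset G), (∀ x ∈ F, L.ℓ x ≤ A) → L.Sep F → (F.card : ℝ) ≤ C * (A + 1) ^ 2) :
    ∃ r : ℕ, 4 ≤ r ∧ Subgroup.closure (L.short K (r + 2)) = Subgroup.closure (L.short K r) := by
  classical
  by_contra hcon
  push Not at hcon
  have key : ∀ i : ℕ, ∃ F : Finset G, (∀ x ∈ F, x ∈ Subgroup.closure (L.short K (4 + 2 * i)) ∧
      L.ℓ x ≤ i ^ 2 + 5 * i) ∧ L.Sep F ∧ F.card = 2 ^ i := by
    intro i
    induction i with
    | zero =>
      refine ⟨{1}, fun x hx => ?_, fun x hx y hy hxy => ?_, rfl⟩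
      · rw [Finset.mem_singleton] at hx
        subst hx
        exact ⟨Subgroup.one_mem _, by rw [L.one]; exact Nat.zero_le _⟩
      · rw [Finset.mem_singleton] at hx hy
        exact absurd (hx.trans hy.symm) hxy
    | succ i ih =>
      obtain ⟨F, hF1, hF2, hF3⟩ := ih
      obtain ⟨r, hr⟩ : ∃ r, r = 4 + 2 * i := ⟨_, rfl⟩
      rw [← hr] at hF1
      have hr' : 4 + 2 * (i + 1) = r + 2 := by omega
      rw [hr']
      have hmono : Subgroup.closure (L.short K r) ≤ Subgroup.closure (L.short K (r + 2)) :=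
        Subgroup.closure_mono (NLen.short_mono (by omega))
      obtain ⟨h, hh1, hh2⟩ : ∃ h ∈ L.short K (r + 2), h ∉ Subgroup.closure (L.short K r) := by
        by_contra hno
        push Not at hno
        exact hcon r (by omega) (le_antisymm ((Subgroup.closure_le _).2 hno) hmono)
      have hKr : ∀ x ∈ Subgroup.closure (L.short K r), x ∈ K := fun x hx => NLen.closure_le hx
      -- elements of `K` outside of the subgroup are long
      have hout : ∀ x ∈ K, x ∉ Subgroup.closure (L.short K r) → 4 < L.ℓ x := by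
        intro x hx hx'
        by_contra hle
        push Not at hle
        exact hx' (Subgroup.subset_closure ⟨hx, by omega⟩)
      have hcross : ∀ x ∈ F, ∀ y ∈ F, 4 < L.ℓ (x⁻¹ * (h * y)) := by
        intro x hx y hy
        refine hout _ ?_ ?_
        · exact K.mul_mem (K.inv_mem (hKr x (hF1 x hx).1)) (K.mul_mem hh1.1 (hKr y (hF1 y hy).1))
        · intro hmem
          apply hh2
          have h1 := Subgroup.mul_mem _ (Subgroup.mul_mem _ (hF1 x hx).1 hmem)
            (Subgroup.inv_mem _ (hF1 y hy).1)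
          have h2 : x * (x⁻¹ * (h * y)) * y⁻¹ = h := by group
          rwa [h2] at h1
      refine ⟨F ∪ F.image (fun x => h * x), fun x hx => ?_, fun x hx y hy hxy => ?_, ?_⟩
      · rw [Finset.mem_union, Finset.mem_image] at hx
        rcases hx with hx | ⟨y, hy, rfl⟩
        · refine ⟨hmono (hF1 x hx).1, (hF1 x hx).2.trans ?_⟩
          nlinarith
        · refine ⟨Subgroup.mul_mem _ (Subgroup.subset_closure hh1) (hmono (hF1 y hy).1), ?_⟩
          have h1 := L.mul h y
          have h2 := hh1.2
          have h3 := (hF1 y hy).2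
          have h4 : (i + 1) ^ 2 + 5 * (i + 1) = i ^ 2 + 5 * i + (r + 2) := by rw [hr]; ring
          omega
      · rw [Finset.mem_union, Finset.mem_image] at hx hy
        rcases hx with hx | ⟨x', hx', rfl⟩
        · rcases hy with hy | ⟨y', hy', rfl⟩
          · exact hF2 x hx y hy hxy
          · exact hcross x hx y' hy'
        · rcases hy with hy | ⟨y', hy', rfl⟩
          · rw [← L.inv, mul_inv_rev, inv_inv]
            exact hcross y hy x' hx'
          · have h1 := hF2 x' hx' y' hy' (fun h0 => hxy (by rw [h0]))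
            have h2 : (h * x')⁻¹ * (h * y') = x'⁻¹ * y' := by group
            rw [h2]
            exact h1
      · rw [Finset.card_union_of_disjoint, Finset.card_image_of_injective _ (mul_right_injective h),
          hF3]
        · ring
        · rw [Finset.disjoint_left]
          intro x hx hx'
          rw [Finset.mem_image] at hx'
          obtain ⟨y, hy, hxy⟩ := hx'
          have h1 := hcross x hx y hy
          rw [hxy, inv_mul_cancel, L.one] at h1
          omega
  -- growth contradiction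
  have h1 : ∀ n : ℕ, 5 ≤ n → (2 : ℝ) ^ n ≤ 32 * C * (n : ℝ) ^ 4 := by
    intro n hn
    obtain ⟨i, rfl⟩ := Nat.exists_eq_add_of_le hn
    obtain ⟨F, hF1, hF2, hF3⟩ := key i
    have h2 := hp _ F (fun x hx => (hF1 x hx).2) hF2
    have hC : 0 ≤ C := by
      have h3 := hp 0 ∅ (by simp) (fun x hx => by simp at hx)
      simpa using h3
    rw [hF3] at h2
    push_cast at h2 ⊢
    have h4 : (0 : ℝ) ≤ i := Nat.cast_nonneg i
    have h5 : ((i : ℝ) ^ 2 + 5 * i + 1) ^ 2 ≤ ((5 + i : ℝ) ^ 2) ^ 2 := by
      refine pow_le_pow_left₀ (by positivity) ?_ 2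
      nlinarith
    calc (2 : ℝ) ^ (5 + i) = 32 * 2 ^ i := by rw [pow_add]; norm_num
      _ ≤ 32 * (C * ((i : ℝ) ^ 2 + 5 * i + 1) ^ 2) := by linarith
      _ ≤ 32 * (C * ((5 + i : ℝ) ^ 2) ^ 2) := by
          have := mul_le_mul_of_nonneg_left h5 hC
          linarith
      _ = 32 * C * (5 + i) ^ 4 := by ring
  have h2 : Tendsto (fun n : ℕ => (n : ℝ) ^ 4 / 2 ^ n) atTop (𝓝 0) :=
    tendsto_pow_const_div_const_pow_of_one_lt 4 (by norm_num)
  have h3 : Tendsto (fun n : ℕ => 32 * C * ((n : ℝ) ^ 4 / 2 ^ n)) atTop (𝓝 0) := by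
    simpa using h2.const_mul (32 * C)
  obtain ⟨n, hn1, hn2⟩ := ((h3.eventually (gt_mem_nhds one_pos)).and (eventually_ge_atTop 5)).exists
  have h4 := h1 n hn2
  have h5 : (0 : ℝ) < 2 ^ n := by positivity
  rw [← mul_div_assoc, div_lt_one h5] at hn1
  linarith

end Vale.Agent.P151.R3.V
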