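import Vale.Agent.P151.R3.H822.VGap

/-!
P151, route R3, block V, part 5: the subgroup generated by the short elements of the kernel is
bounded; assembly.
-/

universe u w

open Filter Topology

namespace Vale.Agent.P151.R3.V

variable {G : Type u} [Group G] {L : NLen G} {V : Filter ℕ} {ρ : ℕ → G → ℝ} {W : Type w}
  [NormedAddCommGroup W] [InnerProductSpace ℝ W] {π : L.Bdd →* (W ≃ₗᵢ[ℝ] W)} {c : L.Bdd → W}
  {C : ℝ}

/-- A bounded sequence with `ρ` bounded below has a nonzero cocycle. -/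
theorem Data.c_ne [NeBot V] (h : Data L V ρ W π c C) {g : L.Bdd} {b : ℝ} (hb : 0 < b)
    (hg : ∀ A, 1 ≤ A → b ≤ ρ A (g.1 A)) : c g ≠ 0 := by
  intro h0
  have h1 := h.c_lim g
  rw [h0, norm_zero] at h1
  have h2 : b ≤ 0 := ge_of_tendsto h1 (h.one_le.mono fun A hA => hg A hA)
  linarith

/-- words of controlled length leaving a ball -/
theorem NLen.geoWord (L : NLen G) (X : ℕ) (hX : ∃ g, X < L.ℓ g) :
    ∃ l : List G, (∀ x ∈ l, L.ℓ x ≤ 1) ∧ X < L.ℓ l.prod ∧ l.length ≤ X + 2 := by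
  classical
  obtain ⟨g, hg⟩ := hX
  obtain ⟨l, hl1, hl2, hl3⟩ := L.geo g
  have hex : ∃ i, X < L.ℓ (l.take i).prod := ⟨l.length, by rwa [List.take_length, hl3]⟩
  obtain ⟨i, hi⟩ : ∃ i, i = Nat.find hex := ⟨_, rfl⟩
  have hi1 : X < L.ℓ (l.take i).prod := by rw [hi]; exact Nat.find_spec hex
  have hi2 : ∀ j, j < i → L.ℓ (l.take j).prod ≤ X := by
    intro j hj
    rw [hi] at hj
    exact not_lt.1 (Nat.find_min hex hj)
  have hil : i ≤ l.length := by
    rw [hi]
    exact Nat.find_min' hex (by rwa [List.take_length, hl3])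
  refine ⟨l.take i, fun x hx => hl2 x (List.mem_of_mem_take hx), hi1, ?_⟩
  rw [List.length_take, min_eq_left hil]
  rcases Nat.eq_zero_or_pos i with h0 | h0
  · omega
  obtain ⟨j, rfl⟩ : ∃ j, i = j + 1 := ⟨i - 1, by omega⟩
  have h1 := hi2 j (Nat.lt_succ_self j)
  have h2 : L.ℓ (l.take (j + 1)).prod ≤ X + 1 := by
    have h3 : (l.take (j + 1)).prod = (l.take j).prod * l[j] := by
      rw [List.prod_take_succ]
    rw [h3]
    have h4 := L.mul (l.take j).prod l[j]
    have h5 := hl2 l[j] (List.getElem_mem _)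
    omega
  have h3 := L.mul (l.take (j + 1)).prod (l.drop (j + 1)).prod
  rw [prod_take_mul_drop, hl3] at h3
  have h4 := NLen.prod_len (L := L) (r := 1) (l := l.drop (j + 1))
    fun x hx => hl2 x (List.mem_of_mem_drop hx)
  rw [List.length_drop] at h4
  omega

/-- `W` is not trivial if the group is unbounded. -/
theorem Data.not_subsingleton [NeBot V] (h : Data L V ρ W π c C) (hun : ∀ X, ∃ g, X < L.ℓ g) :
    ∃ g : L.Bdd, c g ≠ 0 := by
  have h1 : ∀ A : ℕ, ∃ x : G, L.ℓ x ≤ 1 ∧ (1 ≤ A → (1 / 7 : ℝ) ≤ ρ A x) := by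
    intro A
    rcases Nat.eq_zero_or_pos A with h0 | h0
    · exact ⟨1, by rw [L.one]; exact Nat.zero_le _, fun h1 => by omega⟩
    · obtain ⟨l, hl1, hl2, hl3⟩ := L.geoWord (4 * A) (hun _)
      by_contra hcon
      push Not at hcon
      have hne : l ≠ [] := by
        intro h2
        rw [h2, List.prod_nil, L.one] at hl2
        omega
      have h2 := exists_letter (h.ρ_mul A) (1 / 7) l hne fun x hx => (hcon x (hl1 x hx)).2.le
      have h3 := h.ρ_ge A _ hl2
      have h4 : (l.length : ℝ) ≤ 4 * A + 2 := by exact_mod_cast hl3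
      have h5 : (1 : ℝ) ≤ A := by exact_mod_cast h0
      linarith
  choose x hx1 hx2 using h1
  exact ⟨⟨x, 1, hx1⟩, h.c_ne (by norm_num) hx2⟩

/-- powers of an element with trivial linear part -/
theorem Data.c_pow (h : Data L V ρ W π c C) {t : L.Bdd} (ht : π t = 1) (n : ℕ) :
    c (t ^ n) = (n : ℝ) • c t := by
  induction n with
  | zero => rw [pow_zero, h.c_one, Nat.cast_zero, zero_smul]
  | succ n ih =>
    rw [pow_succ, h.c_mul, ih, map_pow, ht, one_pow]
    push_cast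
    rw [add_smul, one_smul]
    rfl

theorem NLen.pow_len (L : NLen G) (x : G) (n : ℕ) : L.ℓ (x ^ n) ≤ n * L.ℓ x := by
  induction n with
  | zero => simp [L.one]
  | succ n ih =>
    rw [pow_succ, Nat.succ_mul]
    have := L.mul (x ^ n) x
    omega

/-- isometries of a line -/
theorem isom_line (hW : Module.finrank ℝ W = 1) (σ : W ≃ₗᵢ[ℝ] W) (hσ : σ ≠ 1) (x : W) :
    σ x = -x := by
  obtain ⟨v, hv, hsp⟩ := finrank_eq_one_iff'.1 hW
  obtain ⟨a, ha⟩ := hsp (σ v)
  have hv' : ‖v‖ ≠ 0 := norm_ne_zero_iff.2 hv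
  have h1 : |a| = 1 := by
    have h2 : ‖σ v‖ = ‖v‖ := σ.norm_map v
    rw [← ha, norm_smul, Real.norm_eq_abs] at h2
    exact mul_right_cancel₀ hv' (h2.trans (one_mul _).symm)
  have h2 : ∀ y, σ y = a • y := by
    intro y
    obtain ⟨b, rfl⟩ := hsp y
    rw [map_smul, ← ha, smul_comm]
  rcases (abs_eq (zero_le_one)).1 h1 with h3 | h3
  · exfalso
    apply hσ
    ext y
    rw [h2, h3, one_smul]
    rfl
  · rw [h2, h3, neg_smul, one_smul]

/-- On a line there is a translation. -/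
theorem Data.exists_transl [NeBot V] [FiniteDimensional ℝ W] (h : Data L V ρ W π c C)
    (hW : Module.finrank ℝ W = 1) : ∃ g : L.Bdd, π g = 1 ∧ c g ≠ 0 := by
  by_contra hcon
  push Not at hcon
  have key : ∀ a b, (π a = 1 ↔ π b = 1) → c a = c b := by
    intro a b hab
    by_cases ha : π a = 1
    · rw [hcon a ha, hcon b (hab.1 ha)]
    · have hb : π b ≠ 1 := fun h1 => ha (hab.2 h1)
      have h1 : π (a * b) = 1 := by
        ext x
        rw [map_mul]
        show π a (π b x) = x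
        rw [isom_line hW _ hb, isom_line hW _ ha, neg_neg]
      have h2 := hcon _ h1
      rw [h.c_mul, isom_line hW _ ha] at h2
      exact add_neg_eq_zero.1 h2
  have b := stdOrthonormalBasis ℝ W
  obtain ⟨D, hD⟩ := h.family (m := 1) (fun i => b (Fin.cast hW.symm i))
    (b.orthonormal.comp _ (Fin.cast_injective _))
  obtain ⟨g, -, hg⟩ := hD 3
  have hC := h.C_one
  have hne : ∀ i j : Fin 3, i ≠ j → c (g fun _ => i) ≠ c (g fun _ => j) := by
    intro i j hij h1
    have h2 := hg (fun _ => i) (fun _ => j) (fun h3 => hij (congrFun h3 0))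
    rw [h1, sub_self, norm_zero] at h2
    linarith
  have h01 := hne 0 1 (by decide)
  have h02 := hne 0 2 (by decide)
  have h12 := hne 1 2 (by decide)
  have k01 := key (g fun _ => 0) (g fun _ => 1)
  have k02 := key (g fun _ => 0) (g fun _ => 2)
  have k12 := key (g fun _ => 1) (g fun _ => 2)
  by_cases p0 : π (g fun _ => 0) = 1 <;> by_cases p1 : π (g fun _ => 1) = 1 <;>
    by_cases p2 : π (g fun _ => 2) = 1 <;> simp_all

/-- **The subgroup generated by the short elements of the kernel is bounded.** -/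
theorem Data.bounded [NeBot V] [FiniteDimensional ℝ W] (h : Data L V ρ W π c C) {r : ℕ}
    (hr : 4 ≤ r) (hgap : Subgroup.closure (L.short h.K (r + 2)) = Subgroup.closure (L.short h.K r)) :
    ∃ D : ℕ, ∀ n ∈ Subgroup.closure (L.short h.K r), L.ℓ n ≤ D := by
  classical
  by_contra hcon
  push Not at hcon
  have hC := h.C_one
  have hun : ∀ X, ∃ n ∈ Subgroup.closure (L.short h.K r), X < L.ℓ n := hcon
  have b := stdOrthonormalBasis ℝ W
  obtain ⟨g0, hg0⟩ := h.not_subsingleton fun X => by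
    obtain ⟨n, -, hn⟩ := hun X
    exact ⟨n, hn⟩
  have hpos : 0 < Module.finrank ℝ W := Module.finrank_pos_iff_exists_ne_zero.2 ⟨_, hg0⟩
  rcases Nat.lt_or_ge (Module.finrank ℝ W) 2 with hlt | hge
  swap
  · -- dimension at least two
    obtain ⟨D, hD0, hD⟩ := h.count (m := 2) (fun i => b (Fin.castLE hge i))
      (b.orthonormal.comp _ (Fin.castLE_injective hge))
    obtain ⟨F, hF1, hF2, hF3⟩ := NLen.many hr (2 * r * ⌈D⌉₊) (hun _)
    have h1 := hD _ F (fun x hx => ⟨NLen.closure_le (hF1 x hx).1, (hF1 x hx).2⟩) hF2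
    have h2 : (0 : ℝ) < (((2 * r * ⌈D⌉₊ : ℕ) : ℝ) + 1) ^ 2 := by positivity
    have h3 : (F.card : ℝ) ≤ D := le_of_mul_le_mul_right h1 h2
    have h4 : ⌈D⌉₊ < F.card := Nat.lt_of_mul_lt_mul_left hF3
    have h5 : (⌈D⌉₊ : ℝ) < F.card := by exact_mod_cast h4
    have h6 := Nat.le_ceil D
    linarith
  -- dimension one
  have hW : Module.finrank ℝ W = 1 := by omega
  obtain ⟨D, hD0, hD'⟩ := h.count (m := 1) (fun i => b (Fin.cast hW.symm i))
    (b.orthonormal.comp _ (Fin.cast_injective _))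
  have hD : ∀ (A : ℕ) (F : Finset G), (∀ x ∈ F, x ∈ h.K ∧ L.ℓ x ≤ A) → L.Sep F →
      (F.card : ℝ) ≤ D * (A + 1) := by
    intro A F hF hs
    have h1 := hD' A F hF hs
    rw [pow_one] at h1
    have h2 : (0 : ℝ) < (A : ℝ) + 1 := by positivity
    have h3 : (F.card : ℝ) * (A + 1) ≤ (D * (A + 1)) * (A + 1) := by
      calc (F.card : ℝ) * (A + 1) ≤ D * (A + 1) ^ 2 := h1
        _ = (D * (A + 1)) * (A + 1) := by ring
    exact le_of_mul_le_mul_right h3 h2
  obtain ⟨N, hN⟩ : ∃ N, N = Subgroup.closure (L.short h.K r) := ⟨_, rfl⟩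
  have hNK : ∀ x ∈ N, x ∈ h.K := fun x hx => by
    rw [hN] at hx
    exact NLen.closure_le hx
  -- `N` is normal
  have hnorm1 : ∀ g, L.ℓ g ≤ 1 → ∀ n ∈ N, g * n * g⁻¹ ∈ N := by
    intro g hg n hn
    have h1 : N ≤ N.comap (MulAut.conj g).toMonoidHom := by
      conv_lhs => rw [hN]
      rw [Subgroup.closure_le]
      intro s hs
      show g * s * g⁻¹ ∈ N
      rw [hN, ← hgap]
      refine Subgroup.subset_closure ⟨h.K_normal hs.1 g, ?_⟩
      have h2 := L.mul (g * s) g⁻¹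
      have h3 := L.mul g s
      have h4 := L.inv g
      have h5 := hs.2
      omega
    exact h1 hn
  have hnorm : ∀ g, ∀ n ∈ N, g * n * g⁻¹ ∈ N := by
    intro g
    obtain ⟨l, -, hl2, rfl⟩ := L.geo g
    induction l with
    | nil =>
      intro n hn
      simpa using hn
    | cons a l ih =>
      intro n hn
      have h1 := ih (fun x hx => hl2 x (List.mem_cons_of_mem _ hx)) n hn
      have h2 := hnorm1 a (hl2 a List.mem_cons_self) _ h1
      rw [List.prod_cons]
      have h3 : a * l.prod * n * (a * l.prod)⁻¹ = a * (l.prod * n * l.prod⁻¹) * a⁻¹ := by group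
      rw [h3]
      exact h2
  -- a sequence of letters which is visible
  have hletter : ∀ A : ℕ, ∃ x : G, x ∈ L.short h.K r ∧ (1 ≤ A → (10 * D + 1)⁻¹ ≤ ρ A x) := by
    intro A
    rcases Nat.eq_zero_or_pos A with h0 | h0
    · exact ⟨1, ⟨Subgroup.one_mem _, by rw [L.one]; exact Nat.zero_le _⟩, fun h1 => by omega⟩
    · obtain ⟨l, hl1, hl2, F, hF1, hF2, hF3⟩ := NLen.minWord hr (4 * A) (hun _)
      by_contra hcon2
      push Not at hcon2
      have hne : l ≠ [] := by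
        intro h2
        rw [h2, List.prod_nil, L.one] at hl2
        omega
      have h2 := exists_letter (h.ρ_mul A) (10 * D + 1)⁻¹ l hne fun x hx =>
        (hcon2 x (hl1 x hx)).2.le
      have h3 := h.ρ_ge A _ hl2
      have h4 := hD _ F (fun x hx => ⟨NLen.closure_le (hF1 x hx).1, (hF1 x hx).2⟩) hF2
      have h5 : (1 : ℝ) ≤ A := by exact_mod_cast h0
      have h6 : (l.length : ℝ) ≤ 2 * F.card := by exact_mod_cast hF3
      push_cast at h4
      have h7 : (l.length : ℝ) ≤ 10 * D * A := by nlinarith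
      have h8 : (0 : ℝ) < (10 * D + 1)⁻¹ := by positivity
      have h9 : (l.length : ℝ) * (10 * D + 1)⁻¹ ≤ 10 * D * A * (10 * D + 1)⁻¹ :=
        mul_le_mul_of_nonneg_right h7 h8.le
      have h10 : 10 * D * A * (10 * D + 1)⁻¹ < A := by
        rw [mul_inv_lt_iff₀ (by positivity)]
        nlinarith
      linarith
  choose x hx1 hx2 using hletter
  obtain ⟨hh, hhh⟩ : ∃ hh : L.Bdd, hh = ⟨x, r, fun A => (hx1 A).2⟩ := ⟨_, rfl⟩
  have hhN : ∀ A, hh.1 A ∈ N := fun A => by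
    rw [hhh, hN]
    exact Subgroup.subset_closure (hx1 A)
  have hhc : c hh ≠ 0 := h.c_ne (b := (10 * D + 1)⁻¹) (by positivity) (by rw [hhh]; exact hx2)
  -- a translation in `N`
  obtain ⟨t, htN, htπ, htc⟩ : ∃ t : L.Bdd, (∀ A, t.1 A ∈ N) ∧ π t = 1 ∧ c t ≠ 0 := by
    by_cases hp : π hh = 1
    · exact ⟨hh, hhN, hp, hhc⟩
    · obtain ⟨g, hg1, hg2⟩ := h.exists_transl hW
      refine ⟨g * hh * g⁻¹ * hh⁻¹, fun A => ?_, ?_, ?_⟩
      · show g.1 A * hh.1 A * (g.1 A)⁻¹ * (hh.1 A)⁻¹ ∈ N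
        exact Subgroup.mul_mem _ (hnorm _ _ (hhN A)) (Subgroup.inv_mem _ (hhN A))
      · rw [map_mul, map_mul, map_mul, map_inv, map_inv, hg1]
        simp
      · have h1 : c (g * hh * g⁻¹ * hh⁻¹) = (2 : ℝ) • c g := by
          have e1 : ∀ y, π hh y = -y := isom_line hW _ hp
          have e2 : ∀ y, π hh⁻¹ y = -y := by
            intro y
            have h2 : π hh⁻¹ ≠ 1 := fun h3 => hp (by rw [map_inv, inv_eq_one] at h3; exact h3)
            exact isom_line hW _ h2 y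
          have e3 : ∀ y, π g⁻¹ y = y := by
            intro y
            rw [map_inv, hg1, inv_one]
            rfl
          have e4 : ∀ y, π g y = y := by
            intro y
            rw [hg1]
            rfl
          rw [h.c_mul, h.c_mul, h.c_mul, h.c_inv, h.c_inv, map_mul, map_mul, map_mul]
          show c g + π g (c hh) + π g (π hh (-π g⁻¹ (c g))) +
            π g (π hh (π g⁻¹ (-π hh⁻¹ (c hh)))) = _
          rw [e2, e3, e3, e1, e1, e4, e4, e4, two_smul]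
          abel
        rw [h1]
        exact smul_ne_zero two_ne_zero hg2
  -- a power of it
  have hct : 0 < ‖c t‖ := norm_pos_iff.2 htc
  obtain ⟨m, hm⟩ := exists_nat_gt (5 * C / ‖c t‖)
  rw [div_lt_iff₀ hct] at hm
  obtain ⟨B0, hB0⟩ := t.2
  obtain ⟨B, hB⟩ : ∃ B, B = m * B0 := ⟨_, rfl⟩
  have htl : ∀ (i A : ℕ), L.ℓ ((t ^ (m * i)).1 A) ≤ B * i := by
    intro i A
    have h1 := L.pow_len (t.1 A) (m * i)
    have h2 := hB0 A
    have h3 : (t ^ (m * i)).1 A = t.1 A ^ (m * i) := rfl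
    rw [h3]
    refine h1.trans ?_
    rw [hB]
    calc m * i * L.ℓ (t.1 A) ≤ m * i * B0 := Nat.mul_le_mul_left _ h2
      _ = m * B0 * i := by ring
  obtain ⟨Q, hQ⟩ : ∃ Q : ℕ, Q = ⌈D * B⌉₊ := ⟨_, rfl⟩
  have hQ' : D * B ≤ Q := by
    rw [hQ]
    exact Nat.le_ceil _
  obtain ⟨F, hF1, hF2, hF3⟩ := NLen.many hr (2 * r * Q) (hun _)
  rw [← hN] at hF1
  have hF4 : Q + 1 ≤ F.card := Nat.lt_of_mul_lt_mul_left hF3
  obtain ⟨A0, hA0⟩ : ∃ A0, A0 = 2 * r * Q := ⟨_, rfl⟩
  rw [← hA0] at hF1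
  obtain ⟨I, hI⟩ : ∃ I : ℕ, I = ⌈D * (A0 + 1)⌉₊ + 1 := ⟨_, rfl⟩
  have hcount := fam (V := V) (L := L) (ι := Fin I × F)
    (fun p => t ^ (m * (p.1 : ℕ)) * L.cst (p.2 : G)) (h.K : Set G) (B * I + A0)
    (D * ((B * I + A0 : ℕ) + 1)) (fun F' hF' hs' => hD _ F' hF' hs')
    (fun p A => by
      show (t ^ (m * (p.1 : ℕ))).1 A * (p.2 : G) ∈ h.K
      refine h.K.mul_mem ?_ (hNK _ (hF1 _ p.2.2).1)
      have h3 : (t ^ (m * (p.1 : ℕ))).1 A = t.1 A ^ (m * (p.1 : ℕ)) := rfl
      rw [h3]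
      exact h.K.pow_mem (hNK _ (htN A)) _)
    (fun p A => (L.mul _ _).trans (add_le_add ((htl _ A).trans (Nat.mul_le_mul_left _ p.1.2.le))
      (hF1 _ p.2.2).2))
    (fun p q hpq => by
      by_cases h1 : p.1 = q.1
      · refine Eventually.of_forall fun A => ?_
        have h2 : p.2 ≠ q.2 := fun h3 => hpq (Prod.ext h1 h3)
        have h3 := hF2 _ p.2.2 _ q.2.2 (fun h4 => h2 (Subtype.ext h4))
        have h4 : ((t ^ (m * (p.1 : ℕ)) * L.cst (p.2 : G)).1 A)⁻¹ *
            (t ^ (m * (q.1 : ℕ)) * L.cst (q.2 : G)).1 A = (p.2 : G)⁻¹ * (q.2 : G) := by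
          rw [h1]
          show ((t ^ (m * (q.1 : ℕ))).1 A * (p.2 : G))⁻¹ *
            ((t ^ (m * (q.1 : ℕ))).1 A * (q.2 : G)) = _
          group
        rw [h4]
        exact h3
      · refine h.sep ?_
        rw [h.c_mul_K (hNK _ (hF1 _ q.2.2).1), h.c_mul_K (hNK _ (hF1 _ p.2.2).1), h.c_pow htπ,
          h.c_pow htπ, ← sub_smul, norm_smul, Real.norm_eq_abs]
        push_cast
        have h4 : (1 : ℝ) ≤ |((q.1 : ℕ) : ℝ) - ((p.1 : ℕ) : ℝ)| := by
          have h5 : ((q.1 : ℕ) : ℤ) - ((p.1 : ℕ) : ℤ) ≠ 0 := by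
            intro h6
            apply h1
            apply Fin.ext
            omega
          have h7 := Int.one_le_abs h5
          have h8 : ((1 : ℤ) : ℝ) ≤ ((|((q.1 : ℕ) : ℤ) - ((p.1 : ℕ) : ℤ)| : ℤ) : ℝ) := by
            exact_mod_cast h7
          push_cast at h8
          exact h8
        rw [← mul_sub, abs_mul, Nat.abs_cast]
        have h9 : (0 : ℝ) ≤ (m : ℝ) * ‖c t‖ := by positivity
        calc 5 * C < m * ‖c t‖ := hm
          _ = m * ‖c t‖ * 1 := (mul_one _).symm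
          _ ≤ m * ‖c t‖ * |((q.1 : ℕ) : ℝ) - ((p.1 : ℕ) : ℝ)| := mul_le_mul_of_nonneg_left h4 h9
          _ = m * |((q.1 : ℕ) : ℝ) - ((p.1 : ℕ) : ℝ)| * ‖c t‖ := by ring)
  rw [Fintype.card_prod, Fintype.card_fin, Fintype.card_coe] at hcount
  push_cast at hcount
  have hI' : D * (A0 + 1) < I := by
    have h1 := Nat.le_ceil (D * (A0 + 1 : ℝ))
    rw [hI]
    push_cast
    linarith
  have hF5 : D * B + 1 ≤ F.card := by
    have h1 : ((Q + 1 : ℕ) : ℝ) ≤ F.card := by exact_mod_cast hF4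
    push_cast at h1
    linarith
  have hI0 : (0 : ℝ) ≤ I := Nat.cast_nonneg I
  have h1 : (I : ℝ) * (D * B + 1) ≤ I * F.card := mul_le_mul_of_nonneg_left hF5 hI0
  nlinarith

/-- **Block V.** -/
theorem blockV' [NeBot V] [FiniteDimensional ℝ W] (h : Data L V ρ W π c C) :
    ∃ D : ℕ, ∀ s : G, L.ℓ s ≤ 1 → c (L.cst s) = 0 → π (L.cst s) = 1 →
      ∀ x, L.ℓ (x⁻¹ * s * x) ≤ D := by
  obtain ⟨r, hr, hgap⟩ := gap L h.K C h.pack
  obtain ⟨D, hD⟩ := h.bounded hr hgap
  refine ⟨D, fun s hs h1 h2 => ?_⟩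
  have hnorm1 : ∀ g, L.ℓ g ≤ 1 → ∀ n ∈ Subgroup.closure (L.short h.K r),
      g⁻¹ * n * g ∈ Subgroup.closure (L.short h.K r) := by
    intro g hg n hn
    have h1 : Subgroup.closure (L.short h.K r) ≤
        (Subgroup.closure (L.short h.K r)).comap (MulAut.conj g⁻¹).toMonoidHom := by
      rw [Subgroup.closure_le]
      intro s hs
      show g⁻¹ * s * g⁻¹⁻¹ ∈ Subgroup.closure (L.short h.K r)
      rw [← hgap]
      refine Subgroup.subset_closure ⟨h.K_normal hs.1 g⁻¹, ?_⟩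
      have h2 := L.mul (g⁻¹ * s) g⁻¹⁻¹
      have h3 := L.mul g⁻¹ s
      have h4 := L.inv g
      have h6 := L.inv g⁻¹
      have h5 := hs.2
      omega
    have h2 := h1 hn
    have h3 : g⁻¹ * n * g⁻¹⁻¹ ∈ Subgroup.closure (L.short h.K r) := h2
    rwa [inv_inv] at h3
  have hnorm : ∀ x, ∀ n ∈ Subgroup.closure (L.short h.K r),
      x⁻¹ * n * x ∈ Subgroup.closure (L.short h.K r) := by
    intro x
    obtain ⟨l, -, hl2, rfl⟩ := L.geo x
    induction l with
    | nil =>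
      intro n hn
      simpa using hn
    | cons a l ih =>
      intro n hn
      have h1 := hnorm1 a (hl2 a List.mem_cons_self) n hn
      have h2 := ih (fun x hx => hl2 x (List.mem_cons_of_mem _ hx)) _ h1
      rw [List.prod_cons]
      have h3 : (a * l.prod)⁻¹ * n * (a * l.prod) = l.prod⁻¹ * (a⁻¹ * n * a) * l.prod := by group
      rw [h3]
      exact h2
  intro x
  refine hD _ (hnorm x s (Subgroup.subset_closure ⟨⟨h1, h2⟩, ?_⟩))
  omega

theorem blockV : Stmt := fun L V _ ρ _ _ _ _ π c C h => blockV' (L := L) (V := V) (ρ := ρ) (π := π)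
  (c := c) (C := C) h

end Vale.Agent.P151.R3.V
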