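import Vale.Agent.P151.R3.H822.VCount

/-!
P151, route R3, block V, part 3: minimal words in the subgroup generated by the short elements
of `K`.
-/

universe u w

open Filter Topology

namespace Vale.Agent.P151.R3.V

variable {G : Type u} [Group G] {L : NLen G}

/-- the elements of `K` of length at most `r` -/
def NLen.short (L : NLen G) (K : Subgroup G) (r : ℕ) : Set G := {h | h ∈ K ∧ L.ℓ h ≤ r}

theorem NLen.short_inv {K : Subgroup G} {r : ℕ} {x : G} (h : x ∈ L.short K r) :
    x⁻¹ ∈ L.short K r := ⟨K.inv_mem h.1, (L.inv x).le.trans h.2⟩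

theorem prod_take_mul_drop (l : List G) (i : ℕ) : (l.take i).prod * (l.drop i).prod = l.prod := by
  rw [← List.prod_append, List.take_append_drop]

theorem NLen.prod_mem {K : Subgroup G} {r : ℕ} {l : List G} (h : ∀ x ∈ l, x ∈ L.short K r) :
    l.prod ∈ Subgroup.closure (L.short K r) :=
  Subgroup.list_prod_mem _ fun x hx => Subgroup.subset_closure (h x hx)

theorem NLen.closure_le {K : Subgroup G} {r : ℕ} : Subgroup.closure (L.short K r) ≤ K := by
  rw [Subgroup.closure_le]
  exact fun x hx => hx.1

/-- **Minimal words.** -/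
theorem NLen.minWord {K : Subgroup G} {r : ℕ} (hr : 4 ≤ r) (X : ℕ)
    (hun : ∃ n ∈ Subgroup.closure (L.short K r), X < L.ℓ n) :
    ∃ l : List G, (∀ x ∈ l, x ∈ L.short K r) ∧ X < L.ℓ l.prod ∧ ∃ F : Finset G,
      (∀ x ∈ F, x ∈ Subgroup.closure (L.short K r) ∧ L.ℓ x ≤ X) ∧ L.Sep F ∧
      l.length ≤ 2 * F.card := by
  classical
  have hex : ∃ j, ∃ l : List G, l.length = j ∧ (∀ x ∈ l, x ∈ L.short K r) ∧ X < L.ℓ l.prod := by
    obtain ⟨n, hn, hX⟩ := hun
    have hn' : n ∈ (Subgroup.closure (L.short K r)).toSubmonoid := hn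
    rw [Subgroup.closure_toSubmonoid] at hn'
    obtain ⟨l, hl, hln⟩ := Submonoid.exists_list_of_mem_closure hn'
    refine ⟨l.length, l, rfl, fun x hx => ?_, by rwa [hln]⟩
    rcases hl x hx with h | h
    · exact h
    · have := NLen.short_inv (L := L) h
      rwa [inv_inv] at this
  obtain ⟨l, hlen, hl, hX⟩ := Nat.find_spec hex
  have hmin : ∀ l' : List G, (∀ x ∈ l', x ∈ L.short K r) → X < L.ℓ l'.prod →
      l.length ≤ l'.length := by
    intro l' h1 h2
    rw [hlen]
    exact Nat.find_min' hex ⟨l', rfl, h1, h2⟩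
  -- the prefixes
  let p : ℕ → G := fun i => (l.take i).prod
  have htake : ∀ i, ∀ x ∈ l.take i, x ∈ L.short K r := fun i x hx => hl x (List.mem_of_mem_take hx)
  have hdrop : ∀ i, ∀ x ∈ l.drop i, x ∈ L.short K r := fun i x hx => hl x (List.mem_of_mem_drop hx)
  have hp1 : ∀ i, i < l.length → L.ℓ (p i) ≤ X := by
    intro i hi
    by_contra hcon
    push Not at hcon
    have h1 := hmin _ (htake i) hcon
    rw [List.length_take] at h1
    omega
  have hp2 : ∀ i j, i + 2 ≤ j → j ≤ l.length → r < L.ℓ ((p i)⁻¹ * p j) := by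
    intro i j hij hj
    by_contra hcon
    push Not at hcon
    have hpK : ∀ i, p i ∈ K := fun i => NLen.closure_le (L := L) (NLen.prod_mem (htake i))
    have h1 : (p i)⁻¹ * p j ∈ L.short K r := ⟨K.mul_mem (K.inv_mem (hpK i)) (hpK j), hcon⟩
    have h2 := hmin (l.take i ++ [(p i)⁻¹ * p j] ++ l.drop j) (by
      intro x hx
      rw [List.mem_append, List.mem_append, List.mem_singleton] at hx
      rcases hx with (hx | hx) | hx
      · exact htake i x hx
      · rw [hx]; exact h1
      · exact hdrop j x hx) (by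
      have h3 : (l.take i ++ [(p i)⁻¹ * p j] ++ l.drop j).prod = l.prod := by
        rw [List.prod_append, List.prod_append, List.prod_singleton]
        show p i * ((p i)⁻¹ * p j) * (l.drop j).prod = l.prod
        rw [mul_inv_cancel_left]
        exact prod_take_mul_drop l j
      rwa [h3])
    rw [List.length_append, List.length_append, List.length_take, List.length_drop,
      List.length_singleton] at h2
    omega
  have hp3 : ∀ i j, i + 2 ≤ j → j ≤ l.length → 4 < L.ℓ ((p i)⁻¹ * p j) := fun i j h1 h2 =>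
    lt_of_le_of_lt hr (hp2 i j h1 h2)
  have hlt : ∀ i, i < (l.length + 1) / 2 → 2 * i < l.length := by
    intro i hi
    omega
  refine ⟨l, hl, hX, (Finset.range ((l.length + 1) / 2)).image fun i => p (2 * i), ?_, ?_, ?_⟩
  · intro x hx
    rw [Finset.mem_image] at hx
    obtain ⟨i, hi, rfl⟩ := hx
    rw [Finset.mem_range] at hi
    exact ⟨NLen.prod_mem (htake _), hp1 _ (hlt i hi)⟩
  · intro x hx y hy hxy
    rw [Finset.mem_image] at hx hy
    obtain ⟨i, hi, rfl⟩ := hx
    obtain ⟨j, hj, rfl⟩ := hy
    rw [Finset.mem_range] at hi hj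
    rcases Nat.lt_trichotomy i j with h | h | h
    · exact hp3 _ _ (by omega) (hlt j hj).le
    · exact absurd (by rw [h]) hxy
    · have h1 := hp3 (2 * j) (2 * i) (by omega) (hlt i hi).le
      rw [← L.inv, mul_inv_rev, inv_inv]
      exact h1
  · rw [Finset.card_image_of_injOn, Finset.card_range]
    · omega
    · intro i hi j hj hij
      have hi' : i < (l.length + 1) / 2 := Finset.mem_range.1 hi
      have hj' : j < (l.length + 1) / 2 := Finset.mem_range.1 hj
      by_contra hne
      have hij' : p (2 * i) = p (2 * j) := hij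
      rcases Nat.lt_or_gt_of_ne hne with h | h
      · have h1 := hp3 (2 * i) (2 * j) (by omega) (hlt j hj').le
        rw [hij', inv_mul_cancel, L.one] at h1
        omega
      · have h1 := hp3 (2 * j) (2 * i) (by omega) (hlt i hi').le
        rw [hij', inv_mul_cancel, L.one] at h1
        omega

/-- the length of a product of letters -/
theorem NLen.prod_len {r : ℕ} {l : List G} (h : ∀ x ∈ l, L.ℓ x ≤ r) :
    L.ℓ l.prod ≤ r * l.length := by
  induction l with
  | nil => simp [L.one]
  | cons a l ih =>
    rw [List.prod_cons, List.length_cons, Nat.mul_succ]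
    have h1 := L.mul a l.prod
    have h2 := h a List.mem_cons_self
    have h3 := ih fun x hx => h x (List.mem_cons_of_mem _ hx)
    omega

/-- An unbounded subgroup generated by short elements contains many separated elements. -/
theorem NLen.many {K : Subgroup G} {r : ℕ} (hr : 4 ≤ r) (X : ℕ)
    (hun : ∃ n ∈ Subgroup.closure (L.short K r), X < L.ℓ n) :
    ∃ F : Finset G, (∀ x ∈ F, x ∈ Subgroup.closure (L.short K r) ∧ L.ℓ x ≤ X) ∧ L.Sep F ∧
      X < 2 * r * F.card := by
  obtain ⟨l, hl, hX, F, hF1, hF2, hF3⟩ := NLen.minWord hr X hun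
  refine ⟨F, hF1, hF2, ?_⟩
  have h1 := NLen.prod_len (L := L) fun x hx => (hl x hx).2
  have h2 : r * l.length ≤ r * (2 * F.card) := Nat.mul_le_mul_left _ hF3
  calc X < L.ℓ l.prod := hX
    _ ≤ r * l.length := h1
    _ ≤ r * (2 * F.card) := h2
    _ = 2 * r * F.card := by ring

/-- a letter of a word on which a subadditive function is large -/
theorem exists_letter {f : G → ℝ} (hf : ∀ g h, f (g * h) ≤ f g + f h) (a : ℝ) (l : List G)
    (hl : l ≠ []) (h : ∀ x ∈ l, f x ≤ a) : f l.prod ≤ l.length * a := by
  induction l with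
  | nil => exact absurd rfl hl
  | cons x l ih =>
    rw [List.prod_cons, List.length_cons]
    by_cases h0 : l = []
    · subst h0
      simp only [List.prod_nil, mul_one, List.length_nil, zero_add, Nat.cast_one,
        one_mul]
      exact h x List.mem_cons_self
    · have h1 := ih h0 fun y hy => h y (List.mem_cons_of_mem _ hy)
      have h2 := hf x l.prod
      have h3 := h x List.mem_cons_self
      push_cast
      linarith

end Vale.Agent.P151.R3.V
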