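import Mathlib

/-!
P151, route R3 (relative Gromov), block V: the abstract interface.

`NLen`: a group with an integer valued, coarsely geodesic length (on the internal group `G₀`:
`ℓ g = lim |g_n|_{P_n}`).  `Data`: what block V consumes from blocks A, O, H.
Conclusion of block V (`Stmt`): conjugates of the elements of length `≤ 1` which act trivially are
uniformly short.
-/

universe u w

open Filter Topology

namespace Vale.Agent.P151.R3.V

/-- A group with an integer valued length, geodesic up to the constant `1`. -/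
structure NLen (G : Type u) [Group G] where
  ℓ : G → ℕ
  one : ℓ 1 = 0
  inv : ∀ g, ℓ g⁻¹ = ℓ g
  mul : ∀ g h, ℓ (g * h) ≤ ℓ g + ℓ h
  geo : ∀ g, ∃ L : List G, L.length ≤ ℓ g + 1 ∧ (∀ x ∈ L, ℓ x ≤ 1) ∧ L.prod = g

variable {G : Type u} [Group G]

/-- `F` is `4`-separated: different translates `x P²` are disjoint. -/
def NLen.Sep (L : NLen G) (F : Finset G) : Prop := ∀ x ∈ F, ∀ y ∈ F, x ≠ y → 4 < L.ℓ (x⁻¹ * y)

/-- The group of bounded sequences `ℕ → G₀` (the levels `A`). -/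
def NLen.Bdd (L : NLen G) : Subgroup (ℕ → G) where
  carrier := {g | ∃ B : ℕ, ∀ A, L.ℓ (g A) ≤ B}
  one_mem' := ⟨0, fun A => by simp [L.one]⟩
  mul_mem' := by
    rintro g h ⟨B, hB⟩ ⟨B', hB'⟩
    exact ⟨B + B', fun A => (L.mul _ _).trans (add_le_add (hB A) (hB' A))⟩
  inv_mem' := by
    rintro g ⟨B, hB⟩
    exact ⟨B, fun A => by rw [Pi.inv_apply, L.inv]; exact hB A⟩

/-- constant sequences -/
def NLen.cst (L : NLen G) : G →* L.Bdd where
  toFun g := ⟨fun _ => g, L.ℓ g, fun _ => le_rfl⟩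
  map_one' := rfl
  map_mul' _ _ := rfl

/-- What block V consumes.  `V` = the filter of levels, `ρ A g = ‖b_A(g)‖`, `(π, c)` = the limit
affine isometric action of the bounded sequences on the finite-dimensional space `W`. -/
structure Data (L : NLen G) (V : Filter ℕ) (ρ : ℕ → G → ℝ) (W : Type w) [NormedAddCommGroup W]
    [InnerProductSpace ℝ W] (π : L.Bdd →* (W ≃ₗᵢ[ℝ] W)) (c : L.Bdd → W) (C : ℝ) : Prop where
  /-- the filter does not see the level `0` -/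
  one_le : ∀ᶠ A in V, 1 ≤ A
  /-- volume of the window: quadratic growth -/
  pack : ∀ (A : ℕ) (F : Finset G), (∀ x ∈ F, L.ℓ x ≤ A) → L.Sep F → (F.card : ℝ) ≤ C * (A + 1) ^ 2
  /-- cocycle norms -/
  ρ_mul : ∀ A g h, ρ A (g * h) ≤ ρ A g + ρ A h
  /-- (i) -/
  ρ_le : ∀ A g, ρ A g ≤ C * (1 + L.ℓ g)
  /-- (ii) visibility -/
  ρ_ge : ∀ A g, 4 * A < L.ℓ g → (A : ℝ) ≤ ρ A g
  /-- the limit cocycle -/
  c_mul : ∀ g h : L.Bdd, c (g * h) = c g + π g (c h)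
  c_lim : ∀ g : L.Bdd, Tendsto (fun A => ρ A (g.1 A)) V (𝓝 ‖c g‖)
  /-- every direction of `W` is visible at bounded distance -/
  vis : ∃ (J : ℕ) (e : ℝ), 0 < e ∧ ∀ u : W, ‖u‖ = 1 → ∃ g : L.Bdd, (∀ A, L.ℓ (g.1 A) ≤ J) ∧
    e ≤ inner ℝ (c g) u

/-- **Block V.** -/
def Stmt : Prop :=
  ∀ {G : Type} [Group G] (L : NLen G) (V : Filter ℕ) [NeBot V] (ρ : ℕ → G → ℝ) (W : Type)
    [NormedAddCommGroup W] [InnerProductSpace ℝ W] [FiniteDimensional ℝ W]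
    (π : L.Bdd →* (W ≃ₗᵢ[ℝ] W)) (c : L.Bdd → W) (C : ℝ), Data L V ρ W π c C →
    ∃ D : ℕ, ∀ s : G, L.ℓ s ≤ 1 → c (L.cst s) = 0 → π (L.cst s) = 1 →
      ∀ x, L.ℓ (x⁻¹ * s * x) ≤ D

/-- **Gap lemma** (587). -/
def GapStmt : Prop :=
  ∀ {G : Type} [Group G] (L : NLen G) (K : Subgroup G) (C : ℝ),
    (∀ (A : ℕ) (F : Finset G), (∀ x ∈ F, x ∈ K ∧ L.ℓ x ≤ A) → L.Sep F → (F.card : ℝ) ≤ C * (A + 1)) →
    ∃ r : ℕ, 4 ≤ r ∧ Subgroup.closure {h | h ∈ K ∧ L.ℓ h ≤ r + 2} =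
      Subgroup.closure {h | h ∈ K ∧ L.ℓ h ≤ r}

end Vale.Agent.P151.R3.V
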